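import Mathlib

open MeasureTheory ProbabilityTheory
open scoped ENNReal NNReal

namespace Vale.Agent.P309

section pi

variable {ι : Type*} [Fintype ι] {α : Type*} [MeasurableSpace α]

omit [Fintype ι] in
theorem lmarginal_prod [DecidableEq ι] (μ : Measure α) [SigmaFinite μ] (f : ι → α → ℝ≥0∞)
    (hf : ∀ i, Measurable (f i)) (s : Finset ι) (x : ι → α) :
    lmarginal (fun _ => μ) s (fun y => ∏ i ∈ s, f i (y i)) x = ∏ i ∈ s, ∫⁻ z, f i z ∂μ := by
  induction s using Finset.induction_on generalizing x with
  | empty => simp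
  | insert i s hi ih =>
    rw [lmarginal_insert' _ _ hi]
    · have h1 : (fun x : ι → α => ∫⁻ z, ∏ j ∈ insert i s, f j (Function.update x i z j) ∂μ) =
          fun x => (∫⁻ z, f i z ∂μ) * ∏ j ∈ s, f j (x j) := by
        ext x
        rw [← lintegral_mul_const _ (hf i)]
        congr 1; ext z
        rw [Finset.prod_insert hi, Function.update_self]
        congr 1
        refine Finset.prod_congr rfl fun j hj => ?_
        rw [Function.update_of_ne (fun h : j = i => hi (h ▸ hj))]
      rw [h1, Finset.prod_insert hi, ← ih x, lmarginal, lmarginal, lintegral_const_mul]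
      have h2 : Measurable fun y : ι → α => ∏ j ∈ s, f j (y j) :=
        Finset.measurable_prod _ fun j _ => (hf j).comp (measurable_pi_apply j)
      exact h2.comp measurable_updateFinset
    · exact Finset.measurable_prod _ fun j _ => (hf j).comp (measurable_pi_apply j)

theorem lintegral_pi_prod (μ : Measure α) [SigmaFinite μ] (f : ι → α → ℝ≥0∞)
    (hf : ∀ i, Measurable (f i)) :
    ∫⁻ x, ∏ i, f i (x i) ∂(Measure.pi fun _ => μ) = ∏ i, ∫⁻ z, f i z ∂μ := by
  classical
  cases isEmpty_or_nonempty (ι → α) with
  | inl h =>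
    -- some coordinate type is empty
    have : Nonempty ι := by
      by_contra hc
      rw [not_nonempty_iff] at hc
      exact h.false (fun i => (hc.false i).elim)
    obtain ⟨i⟩ := this
    have hα : IsEmpty α := by
      by_contra hc
      rw [not_isEmpty_iff] at hc
      obtain ⟨a⟩ := hc
      exact h.false fun _ => a
    have h1 : (Measure.pi fun _ : ι => μ) = 0 := Measure.eq_zero_of_isEmpty _
    rw [h1, lintegral_zero_measure, eq_comm]
    apply Finset.prod_eq_zero (Finset.mem_univ i)
    rw [Measure.eq_zero_of_isEmpty μ, lintegral_zero_measure]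
  | inr h =>
    obtain ⟨x⟩ := h
    rw [lintegral_eq_lmarginal_univ x]
    exact lmarginal_prod μ f hf Finset.univ x

theorem lintegral_pi_prod_pow (μ : Measure α) [SigmaFinite μ] (f : α → ℝ≥0∞)
    (hf : Measurable f) :
    ∫⁻ x : ι → α, ∏ i, f (x i) ∂(Measure.pi fun _ => μ) = (∫⁻ z, f z ∂μ) ^ Fintype.card ι := by
  rw [lintegral_pi_prod μ (fun _ => f) (fun _ => hf)]
  simp

/-- a product of measures with densities -/
theorem pi_withDensity (μ : Measure α) [SigmaFinite μ] (f : α → ℝ≥0∞) (hf : Measurable f)
    [SigmaFinite (μ.withDensity f)] :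
    (Measure.pi fun _ : ι => μ.withDensity f) =
      (Measure.pi fun _ : ι => μ).withDensity fun x => ∏ i, f (x i) := by
  refine Measure.pi_eq fun s hs => ?_
  rw [withDensity_apply _ (MeasurableSet.univ_pi hs), ← lintegral_indicator
    (MeasurableSet.univ_pi hs)]
  have h1 : (Set.univ.pi s).indicator (fun x : ι → α => ∏ i, f (x i)) =
      fun x => ∏ i, (s i).indicator f (x i) := by
    ext x
    by_cases h : x ∈ Set.univ.pi s
    · rw [Set.indicator_of_mem h]
      refine Finset.prod_congr rfl fun i _ => ?_
      rw [Set.indicator_of_mem (h i (Set.mem_univ i))]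
    · rw [Set.indicator_of_notMem h]
      simp only [Set.mem_pi, Set.mem_univ, true_implies, not_forall] at h
      obtain ⟨i, hi⟩ := h
      rw [eq_comm]
      apply Finset.prod_eq_zero (Finset.mem_univ i)
      rw [Set.indicator_of_notMem hi]
  rw [h1, lintegral_pi_prod μ (fun i => (s i).indicator f) (fun i => hf.indicator (hs i))]
  refine Finset.prod_congr rfl fun i _ => ?_
  rw [withDensity_apply _ (hs i), lintegral_indicator (hs i)]

end pi

end Vale.Agent.P309
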